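import Vale.Agent.P233G30.Rows

/-! P233G: test vector fields are dense in the tangent module. -/

set_option linter.all false

open MeasureTheory Filter Topology Set
open scoped ENNReal NNReal InnerProductSpace

universe u

namespace Vale.Agent.P233G46

open Vale.Agent.P233 Vale.Agent.P233G

variable {M : Type u} [MetricSpace M] [MeasurableSpace M]
  {U : Measure M → (M → ℝ) → (M → ℝ) → Prop} {m : Measure M}
  {H : Type u} [NormedAddCommGroup H] [InnerProductSpace ℝ H] (T : Tan U m H)

theorem inner_sm {a : L0 m} (ha : MemLp a ∞ m) (X Y : H) :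
    ⟪T.sm a X, Y⟫_ℝ = I (a * T.ip X Y) := by
  rw [(T.int _ _).2, T.ip_sm a ha]; rfl

theorem inner_sm_swap {a : L0 m} (ha : MemLp a ∞ m) (X Y : H) :
    ⟪T.sm a X, Y⟫_ℝ = ⟪T.sm a Y, X⟫_ℝ := by
  rw [inner_sm T ha, inner_sm T ha, T.symm X Y]

theorem sm_smul {a : L0 m} (ha : MemLp a ∞ m) (c : ℝ) (X : H) :
    T.sm (c • a) X = c • T.sm a X := by
  refine ext_inner_right ℝ fun Y => ?_
  rw [inner_sm T (mem_smul c ha), real_inner_smul_left, inner_sm T ha, smul_mul_assoc, I_smul]

theorem io_append (l l' : List (L0 m × L0 m)) : T.io (l ++ l') = T.io l + T.io l' := by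
  simp [Tan.io]

theorem io_smul (c : ℝ) (l : List (L0 m × L0 m)) (hl : ∀ p ∈ l, MemLp p.1 ∞ m) :
    T.io (l.map fun p => (c • p.1, p.2)) = c • T.io l := by
  induction l with
  | nil => simp [Tan.io]
  | cons p l ih =>
    have h1 := ih fun q hq => hl q (List.mem_cons_of_mem _ hq)
    have h2 := sm_smul T (hl p List.mem_cons_self) c (T.grad p.2)
    unfold Tan.io at h1 ⊢
    rw [List.map_cons, List.map_cons, List.map_cons, List.sum_cons, List.sum_cons, h1, h2,
      smul_add]

theorem dn : DN.{u} := by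
  intro M _ _ _ _ U m κ Gr hX H _ _ T hb J hJ
  have hC := hX.hC
  have hB := hX.hB
  have := hX.sf
  have := T.complete
  let K : Submodule ℝ H :=
    { carrier := {v | ∃ l, (sob m).IsTestV l ∧ T.io l = v}
      add_mem' := by
        rintro _ _ ⟨l, hl, rfl⟩ ⟨l', hl', rfl⟩
        refine ⟨l ++ l', fun p hp => ?_, io_append T l l'⟩
        rcases List.mem_append.1 hp with h | h
        · exact hl p h
        · exact hl' p h
      zero_mem' := ⟨[], fun p hp => by simp at hp, by simp [Tan.io]⟩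
      smul_mem' := by
        rintro c _ ⟨l, hl, rfl⟩
        refine ⟨l.map fun p => (c • p.1, p.2), fun p hp => ?_,
          io_smul T c l fun p hp => (hC.test_A (hl p hp).1).2⟩
        obtain ⟨q, hq, rfl⟩ := List.mem_map.1 hp
        exact ⟨hC.test_smul' c (hl q hq).1, (hl q hq).2⟩ }
  change Dense (K : Set H)
  rw [Submodule.dense_iff_topologicalClosure_eq_top, Submodule.topologicalClosure_eq_top_iff,
    Submodule.eq_bot_iff]
  intro V hV
  have h1 : ∀ b ∈ (sob m).Test, T.ip (T.grad b) V = 0 := fun b hb' => by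
    have hW := (hC.test_A hb').1
    obtain ⟨C, hCb⟩ := mem_top_iff.1 ((hC.lip_iff b hW).1 hb'.1).2
    refine hC.eq_zero_of_test2 hB ?_ fun s hs => ?_
    · refine ((Lp.memLp (J V)).norm.const_mul √C).mono (T.ip _ _).aestronglyMeasurable ?_
      filter_upwards [hJ.ip (T.grad b) V, hJ.grad b hW, hX.hG.inner b hW b hW, hCb]
        with x a1 a2 a3 a4
      rw [a1, a2, Real.norm_eq_abs, Real.norm_eq_abs]
      refine (abs_real_inner_le_norm _ _).trans (le_trans ?_ (le_abs_self _))
      refine mul_le_mul_of_nonneg_right (Real.le_sqrt_of_sq_le ?_) (norm_nonneg _)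
      rw [← real_inner_self_eq_norm_sq, a3]
      exact (le_abs_self _).trans a4
    · rw [← inner_sm T (hC.test_A hs).2]
      refine (Submodule.mem_orthogonal _ _).1 hV _ ⟨[(s, b)], fun p hp => ?_, by simp [Tan.io]⟩
      rw [List.mem_singleton.1 hp]
      exact ⟨hs, hb'⟩
  have h2 : ∀ a f : L0 m, MemLp a ∞ m → W U m f → ⟪T.sm a (T.grad f), V⟫_ℝ = 0 := by
    intro a f ha hf
    have hfW := (hb.w f).1 hf
    rw [inner_sm_swap T ha]
    set Y := T.sm a V with hY
    have h3 : ∀ g ∈ (sob m).Test, ⟪Y, T.grad g⟫_ℝ = 0 := fun g hg => by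
      rw [hY, inner_sm_swap T ha, inner_sm T ha, h1 g hg, mul_zero, I_zero]
    have h4 : T.grad f ∈ closure {Z : H | ⟪Y, Z⟫_ℝ = 0} := by
      refine Metric.mem_closure_iff.2 fun ε hε => ?_
      obtain ⟨g, hg, hgf⟩ := hC.test_dense hB hfW (pow_pos hε 2)
      have hgW := (hC.test_A hg).1
      refine ⟨T.grad g, h3 g hg, ?_⟩
      have hd := hC.toIsDir.sub_mem hgW hfW
      have e : T.grad (g - f) = T.grad g - T.grad f := by
        have := T.lin g f ((hb.w g).2 hgW) hf (-1)
        rwa [neg_one_smul, neg_one_smul, ← sub_eq_add_neg, ← sub_eq_add_neg] at this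
      have e2 : ‖T.grad g - T.grad f‖ ^ 2 = I ((sob m).Γ (g - f) (g - f)) := by
        rw [← e, ← real_inner_self_eq_norm_sq, (T.int _ _).2, hb.gg _ hd _ hd]; rfl
      rw [dist_comm, dist_eq_norm]
      refine lt_of_pow_lt_pow_left₀ 2 hε.le ?_
      have := I_nonneg (sq_nonneg' (g - f))
      unfold Calc.nrm2 at hgf
      linarith
    have hc : IsClosed {Z : H | ⟪Y, Z⟫_ℝ = 0} := isClosed_eq (by fun_prop) continuous_const
    exact hc.closure_subset h4
  have hc : IsClosed {Z : H | ⟪Z, V⟫_ℝ = 0} := isClosed_eq (by fun_prop) continuous_const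
  have h5 : V ∈ {Z : H | ⟪Z, V⟫_ℝ = 0} := by
    refine hc.closure_subset (closure_mono ?_ (T.gen V))
    intro Z hZ
    have : Submodule.span ℝ {X | ∃ a f : L0 m, MemLp a ∞ m ∧ W U m f ∧ X = T.sm a (T.grad f)} ≤
        LinearMap.ker (innerSL ℝ V).toLinearMap := Submodule.span_le.2 (by
      rintro _ ⟨a, f, ha, hf, rfl⟩
      have := h2 a f ha hf
      rw [real_inner_comm] at this
      exact this)
    have h6 : ⟪V, Z⟫_ℝ = 0 := this hZ
    rw [real_inner_comm] at h6
    exact h6
  exact inner_self_eq_zero.1 h5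

end Vale.Agent.P233G46
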